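import Vale.Agent.P224.PO.IdX
import Vale.Agent.P224.PO.R15.Rows
import Vale.Agent.P224.PO.R15.El
import Vale.Agent.P224.PO.R15.DF0
import Vale.Agent.P224.PO.R15.DF1

/-!
The identity of the certificate in dimension 15 and the positivity of its left side.
-/

namespace Vale.Agent.P224.PO.R15

open Vale.Agent.P224.UE Vale.Agent.P224.POS Vale.Agent.P224.PO
open scoped RealInnerProductSpace

noncomputable section

/-- the blocks with the multiplier number 0 -/
def B1 : List BlkX := [⟨els0, 1125899906842624, N0⟩,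
  ⟨els1, 1125899906842624, N1⟩,
  ⟨els2, 1125899906842624, N2⟩,
  ⟨els3, 1125899906842624, N3⟩]

/-- the blocks with the multiplier number 1 -/
def Br : List BlkX := [⟨els4, 1125899906842624, N4⟩,
  ⟨els5, 1125899906842624, N5⟩,
  ⟨els6, 1125899906842624, N6⟩,
  ⟨els7, 1125899906842624, N7⟩]

/-- the blocks with the multiplier number 2 -/
def S1 : List BlkX := [⟨els8, 17179869184, N8⟩,
  ⟨els9, 8589934592, N9⟩,
  ⟨els10, 2199023255552, N10⟩]

/-- the blocks with the multiplier number 3 -/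
def Sr : List BlkX := [⟨els11, 34359738368, N11⟩,
  ⟨els12, 68719476736, N12⟩,
  ⟨els13, 4398046511104, N13⟩]

/-- the integers replacing the first four variables (not powers of two: the kernel hashes a numeral
by its last 64 bits) -/
def Ms : List Nat := [
  Nat.add (Nat.pow 2 78) 1090297408444377839,
  Nat.add (Nat.pow 2 1697) 672893673074899541,
  Nat.add (Nat.pow 2 12485) 494586791774247929,
  Nat.add (Nat.pow 2 88001) 946030352018653745]

set_option maxRecDepth 100000 in
/-- **The identity**, checked by the kernel. -/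
theorem idM : chkX Ms (PE.sb sbH P) 8 tabH (mulX B1 Br S1 Sr) = true := by
  decide +kernel

lemma hB1 : GoodX B1 :=
  (goodX_cons psd0 (goodX_cons psd1 (goodX_cons psd2 (goodX_cons psd3 goodX_nil))))

lemma hBr : GoodX Br :=
  (goodX_cons psd4 (goodX_cons psd5 (goodX_cons psd6 (goodX_cons psd7 goodX_nil))))

lemma hS1 : GoodX S1 :=
  (goodX_cons psd8 (goodX_cons psd9 (goodX_cons psd10 goodX_nil)))

lemma hSr : GoodX Sr :=
  (goodX_cons psd11 (goodX_cons psd12 (goodX_cons psd13 goodX_nil)))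

/-- **Positivity** of the left side on pair data with a vector of length at most `5 / 6`. -/
theorem pos {E : Type*} [NormedAddCommGroup E] [InnerProductSpace ℝ E] {e x N y w : E}
    (he : ‖e‖ ^ 2 ≤ 25 / 36) (hx : ‖x‖ = 1) (hN : ‖N‖ = 1) (hy : ‖y‖ = 1) (hw : ‖w‖ = 1)
    (hxN : ⟪x, N⟫ = 0) (hyw : ⟪y, w⟫ = 0) (hs : ⟪x, y⟫ < 1) :
    0 ≤ PE.ev (vh (dv x N y w e)) P :=
  nonneg_of_chkX 8 (by norm_num) idM rfl hB1 hBr hS1 hSr he hx hN hy hw hxN hyw hs

/-- **The pointwise inequality of the certificate.** -/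
theorem hpos {E : Type*} [NormedAddCommGroup E] [InnerProductSpace ℝ E] (e x N y w : E)
    (he : ‖e‖ ^ 2 ≤ 25 / 36) (hx : ‖x‖ = 1) (hN : ‖N‖ = 1) (hy : ‖y‖ = 1) (hw : ‖w‖ = 1)
    (hxN : ⟪x, N⟫ = 0) (hyw : ⟪y, w⟫ = 0) (hs : ⟪x, y⟫ < 1) :
    0 ≤ Vale.Agent.P224.UE.W9 (1374389534720 / 1374389534720) (691925372160 / 1374389534720) (-4320514871000 / 1374389534720) (3380199522560 / 1374389534720) (-1692577095120 / 1374389534720) (234731023600 / 1374389534720) (0 / 1374389534720) (668667831320 / 1374389534720) (0 / 1374389534720)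
        (dv x N y w e)
      + hsum 15 (rlH 1374389534720 rows) (dv x N y w e) + XF (0 / 1374389534720) (0 / 1374389534720) (0 / 1374389534720) (dv x N y w e)
      + (0 / 1374389534720) * (dv x N y w e) 0 ^ 3 :=
  pos_of hs (pos he hx hN hy hw hxN hyw hs)

end

end Vale.Agent.P224.PO.R15
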